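import Mathlib.Algebra.Order.Chebyshev
import Mathlib.Algebra.Order.Ring.Star
import Mathlib.Algebra.Order.Star.Real
import Mathlib.Algebra.Ring.IsFormallyReal
import Mathlib.Analysis.Complex.ExponentialBounds
import Mathlib.Analysis.SpecialFunctions.Log.Base
import Mathlib.Combinatorics.SimpleGraph.Matching
import Mathlib.Computability.Reduce
import Mathlib.Computability.TuringMachine.Computable
import Mathlib.Data.Int.Star
import Mathlib.Data.List.TakeWhile
import Mathlib.GroupTheory.Perm.Centralizer
import Mathlib.LinearAlgebra.Matrix.Swap
import Mathlib.LinearAlgebra.Matrix.ZPow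
import Mathlib.NumberTheory.Dioph
import Mathlib.RepresentationTheory.Rep.Basic
import Mathlib.Tactic

/-! The part of Mathlib that the development of this folder uses. -/
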